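import Vale.Agent.P027.Main

open Vale.Agent.P027 Vale.Agent.P345

namespace Vale.Agent.Results.P027.Height

/-- The equation `P (a, x) = 0` has a rational solution `x` that satisfies the height comparisons
`H (x i) ≤ H (x j)` for the pairs `(i, j)` in the list `L`. -/
def Sol {n m : ℕ} (P : MvPolynomial (Fin n ⊕ Fin m) ℤ) (L : List (Fin m × Fin m))
    (a : Fin n → ℚ) : Prop :=
  ∃ x : Fin m → ℚ, MvPolynomial.aeval (Sum.elim a x) P = 0 ∧ ∀ q ∈ L, H (x q.1) ≤ H (x q.2)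

/-- With comparisons of heights of single rational numbers, the integers and all recursively
enumerable sets are Diophantine over the rationals, and solvability is undecidable. -/
theorem result :
    (∃ (m : ℕ) (P : MvPolynomial (Fin 1 ⊕ Fin m) ℤ) (L : List (Fin m × Fin m)),
      ∀ a : ℚ, (∃ z : ℤ, a = z) ↔ Sol P L fun _ => a) ∧
    (∀ (n : ℕ) (S : Set (Fin n → ℕ)), (REPred fun b : Fin n → ℕ => b ∈ S) →
      ∃ (m : ℕ) (P : MvPolynomial (Fin n ⊕ Fin m) ℤ) (L : List (Fin m × Fin m)),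
        ∀ a : Fin n → ℚ, (∃ b ∈ S, a = fun i => (b i : ℚ)) ↔ Sol P L a) ∧
    ∃ (m : ℕ) (P : MvPolynomial (Fin 1 ⊕ Fin m) ℤ) (L : List (Fin m × Fin m)),
      ¬ ComputablePred fun a : ℕ => Sol P L fun _ => (a : ℚ) := by
  refine ⟨?_, fun n S hS => (hd_of_sf (SF.rePred hS)).final, ?_⟩
  · obtain ⟨m, P, L, h⟩ := hd_int.final
    exact ⟨m, P, L, fun a => h fun _ => a⟩
  · obtain ⟨S, h1, h2⟩ := undec
    obtain ⟨m, P, L, h⟩ := (hd_of_sf (SF.rePred h1)).final
    refine ⟨m, P, L, fun k => h2 (k.of_eq fun a => (h fun _ => (a : ℚ)).symm.trans ⟨?_, ?_⟩)⟩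
    · rintro ⟨b, hb, e⟩
      have e0 : a = b 0 := by exact_mod_cast congrFun e 0
      exact e0 ▸ hb
    · exact fun ha => ⟨fun _ => a, ha, rfl⟩

end Vale.Agent.Results.P027.Height
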